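-- RD-BASE 6ed376492ab6eb026b82dad15bcdd4295187729c
import Vale.Agent.P028.MathlibUsed
import Vale.Agent.P028.RD.H758.X2Defs
attribute [-instance] ProperSMul.toContinuousSMul IsTopologicalTorsor.toContinuousSMul IdemSemiring.toCanonicallyOrderedAdd IdemSemiring.toMulLeftMono IdemSemiring.toMulRightMono AddQuantale.instAddLeftMono AddQuantale.instAddRightMono Quantale.instMulLeftMono Quantale.instMulRightMono FiniteDimensional.rclike_to_real IsScalarTower.complexToReal FiniteDimensional.complexToReal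

/-!
# The energy of a class between groups at a cut: dictionary
-/

namespace Vale.P028.SK

open Finset CF RN

variable {g : Cfg}

/-! ### The beginning of the phase -/

theorem adS_eq {t i m q : ℕ} {F : ℚ} (h : Ad g t i m q F) (him : i < m) : adS g m q = t := by
  classical
  have h1 : Ad g t (m - 1) m q F := ⟨h.pos, by have := h.le; omega, h.un, h.new⟩
  have hex : ∃ t, ∃ F, Ad g t (m - 1) m q F := ⟨t, F, h1⟩
  unfold adS
  rw [dif_pos hex]
  obtain ⟨F', h2⟩ := hex.choose_spec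
  obtain ⟨b, hb⟩ := h1.un (m - 1) h1.le (by omega)
  obtain ⟨b', hb'⟩ := h2.un (m - 1) h2.le (by omega)
  have e : F' = F := by
    have h3 : some (F, b) = some (F', b') := hb.symm.trans hb'
    rw [Option.some.injEq, Prod.mk.injEq] at h3
    exact h3.1.symm
  rw [e] at h2
  exact h2.unique h1 (by omega)

theorem adS_congr {m q r : ℕ} (hst : ∀ j, j < m → st g j q = st g j r) :
    adS g m q = adS g m r := by
  classical
  rcases Nat.eq_zero_or_pos m with rfl | hm
  · have hno : ∀ q : ℕ, ¬ ∃ t, ∃ F, Ad g t (0 - 1) 0 q F := by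
      rintro q ⟨t, F, h⟩
      have := h.pos
      have := h.le
      omega
    unfold adS
    rw [dif_neg (hno q), dif_neg (hno r)]
  · by_cases h : ∃ t, ∃ F, Ad g t (m - 1) m q F
    · obtain ⟨t, F, h1⟩ := h
      have h2 := h1.congr (by omega) hst
      rw [adS_eq h1 (by omega), adS_eq h2 (by omega)]
    · have h' : ¬ ∃ t, ∃ F, Ad g t (m - 1) m r F := by
        rintro ⟨t, F, h1⟩
        exact h ⟨t, F, h1.congr (by omega) fun j hj => (hst j hj).symm⟩
      unfold adS
      rw [dif_neg h, dif_neg h']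

/-- the data of the phase of an element whose fraction is constant at the stages `i, ..., m - 1` -/
theorem Un.ad {i m q : ℕ} {F : ℚ} (h : Un g i m q F) (him : i < m) :
    Ad g (adS g m q) i m q F := by
  obtain ⟨t, ht⟩ := h.exists_Ad him
  rw [adS_eq ht him]
  exact ht

/-- **the stage of an aligned pair is the beginning of the younger phase** -/
theorem stage_max {i m q r : ℕ} {n : ℤ} {F G : ℚ} (him : i < m) (hT : TAj g i q r n)
    (hq : Un g i m q F) (hr : Un g i m r G) : i = max (adS g m q) (adS g m r) := by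
  have h1 := hq.ad him
  have h2 := hr.ad him
  have h3 := h1.le
  have h4 := h2.le
  have h5 := h1.pos
  by_contra hne
  have h6 : adS g m q ≤ i - 1 ∧ adS g m r ≤ i - 1 := by
    rcases le_total (adS g m q) (adS g m r) with h | h
    · rw [max_eq_right h] at hne
      omega
    · rw [max_eq_left h] at hne
      omega
  obtain ⟨⟨F', b, G', b', k1, k2, k3⟩, k4, -⟩ := hT
  obtain ⟨c, hc⟩ := hq i le_rfl him
  obtain ⟨c', hc'⟩ := hr i le_rfl him
  have eF : F' = F := by
    have := k1.symm.trans hc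
    rw [Option.some.injEq, Prod.mk.injEq] at this
    exact this.1
  have eG : G' = G := by
    have := k2.symm.trans hc'
    rw [Option.some.injEq, Prod.mk.injEq] at this
    exact this.1
  rw [eF, eG] at k3
  obtain ⟨d, hd⟩ := h1.un (i - 1) h6.1 (by omega)
  obtain ⟨d', hd'⟩ := h2.un (i - 1) h6.2 (by omega)
  exact k4 (i - 1) (by omega) le_rfl ⟨F, d, G, d', hd, hd', k3⟩

/-! ### The groups -/

/-- the label of the group of `q` -/
noncomputable def kyx (x q : ℕ) : ℕ × ℕ := (rgh x q, Nat.log 2 q)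

open Classical in
/-- the group with the label `e` -/
noncomputable def Gpx (g : Cfg) (x : ℕ) (e : ℕ × ℕ) : Finset ℕ := (V1 g).filter (fun q => kyx x q = e)

open Classical in
/-- the energy between two groups -/
noncomputable def Egx (g : Cfg) (δ : ℕ → ℕ → ℝ) (x : ℕ) (T : ℕ → ℕ → ℤ → Prop)
    (e e' : ℕ × ℕ) : ℝ :=
  ∑ q ∈ Gpx g x e, ∑ r ∈ (Gpx g x e').erase q, f g q * f g r / Dl g q r *
    ∑ n ∈ (Sh g q r).filter (fun n => T q r n), Kd g δ q r n

theorem mem_Gpx {x q : ℕ} {e : ℕ × ℕ} : q ∈ Gpx g x e ↔ q ∈ V1 g ∧ kyx x q = e := by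
  classical
  unfold Gpx
  exact mem_filter

theorem Gpx_sub (g : Cfg) (x : ℕ) (e : ℕ × ℕ) : Gpx g x e ⊆ V1 g := fun _ h => (mem_Gpx.1 h).1

theorem Egx_nonneg {δ : ℕ → ℕ → ℝ} (hδ : Om δ) (x : ℕ) (T : ℕ → ℕ → ℤ → Prop) (e e' : ℕ × ℕ) :
    0 ≤ Egx g δ x T e e' := by
  classical
  unfold Egx
  refine sum_nonneg fun q _ => sum_nonneg fun r _ => ?_
  exact mul_nonneg (div_nonneg (mul_nonneg (f_nonneg g q) (f_nonneg g r)) (Dl_nonneg g q r))
    (sum_nonneg fun n _ => Kd_nonneg g hδ q r n)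

/-- **the energy is the sum over the pairs of groups** -/
theorem EnS_groups (δ : ℕ → ℕ → ℝ) (x : ℕ) (T : ℕ → ℕ → ℤ → Prop) :
    EnS g (V1 g) δ T = ∑ e ∈ (V1 g).image (kyx x), ∑ e' ∈ (V1 g).image (kyx x),
      Egx g δ x T e e' := by
  classical
  set P : ℕ → ℕ → ℝ := fun q r => f g q * f g r / Dl g q r *
      ∑ n ∈ (Sh g q r).filter (fun n => T q r n), Kd g δ q r n with hP
  set P' : ℕ → ℕ → ℝ := fun q r => if r = q then 0 else P q r with hP'
  have key : ∀ (S : Finset ℕ) (q : ℕ), ∑ r ∈ S.erase q, P q r = ∑ r ∈ S, P' q r := by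
    intro S q
    by_cases hq : q ∈ S
    · rw [← add_sum_erase S _ hq]
      simp only [hP', if_true, zero_add]
      refine sum_congr rfl fun r hr => ?_
      rw [if_neg (ne_of_mem_erase hr)]
    · rw [erase_eq_of_notMem hq]
      refine sum_congr rfl fun r hr => ?_
      simp only [hP']
      rw [if_neg (fun h : r = q => hq (h ▸ hr))]
  have e1 : EnS g (V1 g) δ T = ∑ q ∈ V1 g, ∑ r ∈ V1 g, P' q r := by
    change ∑ q ∈ V1 g, ∑ r ∈ (V1 g).erase q, P q r = _
    exact sum_congr rfl fun q _ => key _ q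
  have e2 : ∀ e e' : ℕ × ℕ, Egx g δ x T e e' =
      ∑ q ∈ Gpx g x e, ∑ r ∈ Gpx g x e', P' q r := by
    intro e e'
    unfold Egx
    exact sum_congr rfl fun q _ => key _ q
  rw [e1, ← sum_fiberwise_of_maps_to (s := V1 g) (t := (V1 g).image (kyx x)) (g := kyx x)
    (fun q hq => mem_image_of_mem _ hq)]
  refine sum_congr rfl fun e _ => ?_
  symm
  rw [sum_congr rfl fun e' _ => e2 e e', sum_comm]
  have e3 : ∀ q ∈ Gpx g x e, ∑ e' ∈ (V1 g).image (kyx x), ∑ r ∈ Gpx g x e', P' q r =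
      ∑ r ∈ V1 g, P' q r := fun q _ =>
    sum_fiberwise_of_maps_to (s := V1 g) (t := (V1 g).image (kyx x)) (g := kyx x)
      (fun q hq => mem_image_of_mem _ hq) _
  exact sum_congr rfl e3

/-- the total mass of the groups -/
theorem sum_groups (x : ℕ) : ∑ e ∈ (V1 g).image (kyx x), ∑ q ∈ Gpx g x e, f g q =
    ∑ q ∈ V1 g, f g q := by
  classical
  exact sum_fiberwise_of_maps_to (fun q hq => mem_image_of_mem _ hq) _

/-- a nonzero energy has a witness -/
theorem Egx_ne {δ : ℕ → ℕ → ℝ} {x : ℕ} {T : ℕ → ℕ → ℤ → Prop} {e e' : ℕ × ℕ}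
    (h : Egx g δ x T e e' ≠ 0) : ∃ q r : ℕ, ∃ n : ℤ, q ∈ Gpx g x e ∧ r ∈ Gpx g x e' ∧
      n ∈ Sh g q r ∧ T q r n ∧ Kd g δ q r n ≠ 0 := by
  classical
  by_contra hcon
  push Not at hcon
  apply h
  unfold Egx
  refine sum_eq_zero fun q hq => sum_eq_zero fun r hr => ?_
  have : ∑ n ∈ (Sh g q r).filter (fun n => T q r n), Kd g δ q r n = 0 :=
    sum_eq_zero fun n hn => hcon q r n hq (mem_of_mem_erase hr) (mem_filter.1 hn).1
      (mem_filter.1 hn).2
  rw [this, mul_zero]

end Vale.P028.SK
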