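-- RD-BASE e84d1e9cbe7d8fd099798da1dac9384677120019
import Vale.Agent.P028.MathlibUsed
import Vale.Agent.P028.RD.H758.X2E
import Vale.Agent.P028.RD.H676.PairX
import Vale.Agent.P028.RD.H734.CutDefs
attribute [-instance] ProperSMul.toContinuousSMul IsTopologicalTorsor.toContinuousSMul IdemSemiring.toCanonicallyOrderedAdd IdemSemiring.toMulLeftMono IdemSemiring.toMulRightMono AddQuantale.instAddLeftMono AddQuantale.instAddRightMono Quantale.instMulLeftMono Quantale.instMulRightMono FiniteDimensional.rclike_to_real IsScalarTower.complexToReal FiniteDimensional.complexToReal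

/-!
# The energy of a class at a cut from the energy theorem of the words
-/

namespace Vale.P028.SK

open Finset CF RN

variable {g : Cfg}

/-- the dilution of the rough part is the dilution of the word -/
theorem dsx_eq (c1 c : ℝ) (x m q p : ℕ) :
    dsx g c1 c x m q p = dst g c1 c x (adS g m q) (wrd g x q) p := by
  unfold dsx dst
  rw [cut_congr (AgL.rgh x q), cut_congr (wrd_agL x q)]

theorem lkx_eq {x i q r : ℕ} (ha : rcof (z g i) (N g) (kc g q) q r ≠ 0) :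
    lkx g x i q r = (omx g x q (rcof (z g i) (N g) (kc g q) q r)).primeFactors := by
  classical
  ext p
  unfold lkx
  rw [mem_filter, Nat.mem_primeFactors, Nat.mem_primeFactors]
  constructor
  · rintro ⟨⟨h1, h2, h3⟩, h4⟩
    have h5 : p ∣ rcof (z g i) (N g) (kc g q) q r := h2.trans (rgh_dvd (Nat.pos_of_ne_zero ha))
    have h6 : x < p := by
      by_contra h7
      have h8 : (rgh x (rcof (z g i) (N g) (kc g q) q r)).factorization p = 0 := by
        rw [rgh_fac, if_neg h7]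
      have h9 := h1.factorization_pos_of_dvd h3 h2
      omega
    exact ⟨h1, (dvd_omx ha h1).2 ⟨h6, h4, h5⟩, (omx_pos _ _ _).ne'⟩
  · rintro ⟨h1, h2, -⟩
    obtain ⟨h6, h4, h5⟩ := (dvd_omx ha h1).1 h2
    refine ⟨⟨h1, ?_, (rgh_pos _ _).ne'⟩, h4⟩
    refine Nat.dvd_of_factorization_pos ?_
    rw [rgh_fac, if_pos h6]
    exact (h1.factorization_pos_of_dvd ha h5).ne'

theorem mem_lkx {x i q r p : ℕ} : p ∈ lkx g x i q r ↔
    p ∈ (rgh x (rcof (z g i) (N g) (kc g q) q r)).primeFactors ∧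
      q.factorization p = kc g q p := by
  unfold lkx
  exact mem_filter

theorem lkx_prime {x i q r p : ℕ} (h : p ∈ lkx g x i q r) : p.Prime :=
  Nat.prime_of_mem_primeFactors (mem_filter.1 h).1

theorem u2x_eq {x i q r : ℕ} :
    u2x g x i q r = rsx g x q (rcof (z g i) (N g) (kc g q) q r) := by
  classical
  have hpr : ∀ p ∈ (rgh x (rcof (z g i) (N g) (kc g q) q r)).primeFactors \ lkx g x i q r,
      p.Prime := fun p hp => Nat.prime_of_mem_primeFactors (mem_sdiff.1 hp).1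
  refine Nat.eq_of_factorization_eq (pt_pos hpr _).ne' (rsx_pos _ _ _).ne' fun p => ?_
  unfold u2x
  rw [pt_fac hpr, rsx_fac]
  by_cases h1 : p ∈ (rgh x (rcof (z g i) (N g) (kc g q) q r)).primeFactors
  · have hp := Nat.prime_of_mem_primeFactors h1
    have h6 : x < p := by
      by_contra h7
      have h8 : (rgh x (rcof (z g i) (N g) (kc g q) q r)).factorization p = 0 := by
        rw [rgh_fac, if_neg h7]
      have h9 := hp.factorization_pos_of_dvd (rgh_pos _ _).ne' (Nat.dvd_of_mem_primeFactors h1)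
      omega
    by_cases h2 : q.factorization p = kc g q p
    · rw [if_neg fun h => (mem_sdiff.1 h).2 (mem_lkx.2 ⟨h1, h2⟩), if_neg fun h => h.2 h2]
    · rw [if_pos (mem_sdiff.2 ⟨h1, fun h => h2 (mem_lkx.1 h).2⟩), if_pos ⟨h6, h2⟩]
  · rw [if_neg fun h => h1 (mem_sdiff.1 h).1]
    split_ifs with h2
    · have h8 : (rgh x (rcof (z g i) (N g) (kc g q) q r)).factorization p = 0 := by
        by_contra h9
        apply h1
        rw [← Nat.support_factorization, Finsupp.mem_support_iff]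
        exact h9
      rw [rgh_fac, if_pos h2.1] at h8
      exact h8.symm
    · rfl

/-- the weight of the omitted part -/
theorem wf_lkx (c1 c lam : ℝ) {x i m q r : ℕ} (ha : rcof (z g i) (N g) (kc g q) q r ≠ 0) :
    ∏ p ∈ lkx g x i q r, (lam * dsx g c1 c x m q p) =
      wf g c1 (lam * c) x (adS g m q) (wrd g x q)
        (omx g x q (rcof (z g i) (N g) (kc g q) q r)) := by
  rw [wf_smul, lkx_eq ha]
  exact prod_congr rfl fun p _ => by rw [dsx_eq]

/-- few deviations above the cut -/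
theorem Dvx_sum {x q : ℕ} (hzx : zs g ≤ x) (hq : q ∈ V1 g) :
    ∑ p ∈ Dvx g x (wrd g x q), (p : ℝ) ^ (-(1 / 3) : ℝ) ≤ 1 / 4 := by
  classical
  have hW : WW w3 g q ≤ 1 / 4 := (mem_filter.1 hq).2
  refine le_trans ?_ hW
  unfold WW
  refine sum_le_sum_of_subset_of_nonneg (fun p hp => ?_) fun p _ _ => w3_nonneg p
  unfold Dvx at hp
  obtain ⟨h1, h2, h3⟩ := mem_filter.1 hp
  have h4 := mem_Icc.1 h1
  rw [wrd_fac, if_pos (by omega), wrd_kc (by omega)] at h3
  refine mem_filter.2 ⟨NT.mem_PzN.2 ⟨h2, by omega, h4.2⟩, fun h5 => ?_⟩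
  unfold kc NT.kN at h3
  rw [if_pos h4.2] at h3
  omega

/-- a witness of the class is a pair of the pair lemma -/
theorem ClX.px {δ : ℕ → ℕ → ℝ} {x m : ℕ} {I : Finset ℕ} {T : ℕ → ℕ → ℕ → ℤ → Prop}
    (hV : g.V ⊆ Icc 1 (N g)) (cl : ClX g δ x m I T) {i : ℕ} (hi : i ∈ I) {q r : ℕ} {n : ℤ}
    (hq : q ∈ V1 g) (hr : r ∈ V1 g) (hn : n ∈ Sh g q r) (hT : T i q r n)
    (hK : Kd g δ q r n ≠ 0) : PX g x i q r := by
  have hqV : q ∈ g.V := (mem_filter.1 (mem_filter.1 hq).1).1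
  have hrV : r ∈ g.V := (mem_filter.1 (mem_filter.1 hr).1).1
  have hc : Clean g (z g i) q r := (cl.taj i hi q r n hT).2.2.1
  have hxz := cl.cut i (cl.lt i hi)
  obtain ⟨h1, h2⟩ := cl.pl i hi q hq r hr n hn hT hK
  refine ⟨hqV, hrV, cl.zs_le, hxz, hc, h1, ?_⟩
  intro p hp hxp hd
  refine h2 p hp hxp ?_
  rw [rcof_swap hV (cl.zs_le.trans hxz) hqV hrV hc]
  exact hd

/-- **THE ENERGY OF A CLASS AT A CUT** -/
theorem enX_of_X2 {c1 c lam C : ℝ} (hX2 : X2 c1 (lam * c) C) : EnX c1 c lam C := by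
  classical
  intro g hJ hJX hV hc1 δ x m I T hδ hR cl A B β hA hβ hB hG
  -- the representatives of the groups
  have hex : ∀ e ∈ (V1 g).image (kyx x), ∃ q ∈ V1 g, kyx x q = e := fun e he => by
    obtain ⟨q, hq, hqe⟩ := mem_image.1 he
    exact ⟨q, hq, hqe⟩
  choose! ρ hρ1 hρ2 using hex
  set S := (V1 g).image (kyx x) with hS
  have hVq : ∀ {q : ℕ}, q ∈ V1 g → q ∈ g.V := fun hq => (mem_filter.1 (mem_filter.1 hq).1).1
  set nu : ℕ × ℕ → ℕ := fun e => wrd g x (ρ e) with hnu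
  set hl : ℕ × ℕ → ℤ := fun e => (e.2 : ℤ) - Nat.log 2 e.1 with hhl
  set cc : ℕ × ℕ → ℕ := fun e => adS g m (ρ e) with hcc
  set Fm : ℕ × ℕ → ℝ := fun e => ∑ q ∈ Gpx g x e, f g q with hFm
  -- the data of a member of a group
  have hmem : ∀ e ∈ S, ∀ q ∈ Gpx g x e, q ∈ V1 g ∧ rgh x q = rgh x (ρ e) ∧
      Nat.log 2 q = Nat.log 2 (ρ e) ∧ wrd g x q = nu e ∧ szx x q = hl e ∧
      adS g m q = cc e := by
    intro e he q hq
    obtain ⟨h1, h2⟩ := mem_Gpx.1 hq
    have h3 := hρ2 e he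
    have h4 := h2.trans h3.symm
    have e1 : rgh x q = rgh x (ρ e) := by
      change (kyx x q).1 = (kyx x (ρ e)).1
      rw [h4]
    have e2 : Nat.log 2 q = Nat.log 2 (ρ e) := by
      change (kyx x q).2 = (kyx x (ρ e)).2
      rw [h4]
    refine ⟨h1, e1, e2, wrd_congr e1, ?_, ?_⟩
    · simp only [hhl]
      rw [← h2]
      rfl
    · exact adS_congr fun j hj => hR q (hVq h1) (ρ e) (hVq (hρ1 e he)) e1 e2 j (cl.cut j hj)
  have hfam : FamX g x S nu hl Fm := by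
    refine ⟨fun e he e' he' h1 h2 => ?_, fun e _ => wrd_pos _ _, fun e he =>
      (wrd_Gd (hVq (hρ1 e he))).2, fun e he => Dvx_sum cl.zs_le (hρ1 e he), fun e _ =>
      sum_nonneg fun q _ => f_nonneg g q⟩
    have h3 : rgh x (ρ e) = rgh x (ρ e') := wrd_inj h1
    have h4 : e.1 = e'.1 := by
      rw [← hρ2 e he, ← hρ2 e' he']
      exact h3
    have h5 : e.2 = e'.2 := by
      have h6 : (e.2 : ℤ) - Nat.log 2 e.1 = (e'.2 : ℤ) - Nat.log 2 e'.1 := h2
      rw [h4] at h6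
      omega
    exact Prod.ext h4 h5
  have hE := hX2 g x cl.zs_le hc1 S nu hl cc Fm hfam A B β hA hβ hB I
    (fun i e e' => Egx g δ x (T i) e e') (fun i hi => cl.cut i (cl.lt i hi)) ?_
  · have e1 : ∑ i ∈ I, EnS g (V1 g) δ (T i) =
        ∑ i ∈ I, ∑ e ∈ S, ∑ e' ∈ S, Egx g δ x (T i) e e' :=
      sum_congr rfl fun i _ => EnS_groups δ x (T i)
    rw [e1]
    refine hE.trans (le_of_eq ?_)
    rw [hFm, hS, sum_groups]
  intro i hi e he e' he'
  refine ⟨Egx_nonneg hδ x (T i) e e', fun hne => ?_⟩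
  obtain ⟨q, r, n, hq, hr, hn, hT, hK⟩ := Egx_ne hne
  obtain ⟨hq1, hq2, hq3, hq4, hq5, hq6⟩ := hmem e he q hq
  obtain ⟨hr1, hr2, hr3, hr4, hr5, hr6⟩ := hmem e' he' r hr
  have hpx := cl.px hV hi hq1 hr1 hn hT hK
  have hz : zs g ≤ z g i := cl.zs_le.trans (cl.cut i (cl.lt i hi))
  obtain ⟨-, -, -, ha, hb⟩ := clean_cofac hV hz (hVq hq1) (hVq hr1) hpx.cl
  have hsw := rcof_swap hV hz (hVq hq1) (hVq hr1) hpx.cl r q
  have hP := hpx.pairX hV
  rw [hq4, hr4] at hP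
  refine ⟨?_, _, _, _, _, _, hP, ?_⟩
  · obtain ⟨F, G, hF, hG'⟩ := cl.un i hi q r n hT
    rw [← hq6, ← hr6]
    exact (stage_max (cl.lt i hi) (cl.taj i hi q r n hT) hF hG').symm
  have hGB := hG i hi (Gpx g x e) (Gpx g x e') (Gpx_sub g x e) (Gpx_sub g x e') q hq r hr
    (fun q' hq' => by
      obtain ⟨-, h2, h3, -⟩ := hmem e he q' hq'
      exact ⟨h2.trans hq2.symm, h3.trans hq3.symm⟩)
    (fun r' hr' => by
      obtain ⟨-, h2, h3, -⟩ := hmem e' he' r' hr'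
      exact ⟨h2.trans hr2.symm, h3.trans hr3.symm⟩) n hn hT hK
  refine hGB.trans (le_of_eq ?_)
  have hb' : rcof (z g i) (N g) (kc g r) r q ≠ 0 := by
    rw [hsw]
    exact hb.ne'
  have hxz := cl.cut i (cl.lt i hi)
  rw [wf_lkx c1 c lam ha.ne', wf_lkx c1 c lam hb', u2x_eq (q := q), u2x_eq (q := r), hsw,
    ← omx_mul_rsx (g := g) x q (rcof (z g i) (N g) (kc g q) q r),
    ← omx_mul_rsx (g := g) x r (rcof (z g i) (N g) (kc g q) r q), hq5, hr5, hq6, hr6, hq4, hr4,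
    ← wrd_Wt (q := r) hxz, ← wrd_Wt (q := q) hxz, hq4, hr4]
  unfold gm2 bdX
  have m1 : min (1 / 2 : ℝ) (1 - 1 / 2) - 2 / 5 = 1 / 10 := by norm_num
  have m2 : min (9 / 20 : ℝ) (1 - 9 / 20) - 2 / 5 = 1 / 20 := by norm_num
  have m3 : (1 : ℝ) - 1 / 2 = 1 / 2 := by norm_num
  have m4 : (1 : ℝ) - 9 / 20 = 11 / 20 := by norm_num
  rw [m1, m2, m3, m4]
  push_cast
  ring

end Vale.P028.SK
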