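-- RD-BASE 64fe0585a30ae14d57ddde04409d21523da01220
import Vale.Agent.P028.MathlibUsed
import Vale.Agent.P028.RD.H758.X2F
attribute [-instance] ProperSMul.toContinuousSMul IsTopologicalTorsor.toContinuousSMul IdemSemiring.toCanonicallyOrderedAdd IdemSemiring.toMulLeftMono IdemSemiring.toMulRightMono AddQuantale.instAddLeftMono AddQuantale.instAddRightMono Quantale.instMulLeftMono Quantale.instMulRightMono FiniteDimensional.rclike_to_real IsScalarTower.complexToReal FiniteDimensional.complexToReal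

/-!
# The energy of a class at a cut, the beginnings of the phases given separately for the two sides
-/

namespace Vale.P028.SK

open Finset CF RN

variable {g : Cfg}

/-- the dilution of the part `> x` of `q`, phase starting at the stage `a`, cut at `x` -/
noncomputable def dsa (g : Cfg) (c1 c : ℝ) (x a q p : ℕ) : ℝ :=
  H669.dl (muw g c1 (rgh x q)) (uw g (rgh x q)) c (N g - z g a) (N g - x) (N g - p)

open Classical in
/-- **The group bound** at the cut `x`, stage `i`, beginnings `cL`, `cR` -/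
def GBy (g : Cfg) (δ : ℕ → ℕ → ℝ) (c1 c lam A : ℝ) (β : ℤ → ℝ) (x i : ℕ) (cL cR : ℕ → ℕ)
    (T : ℕ → ℕ → ℤ → Prop) : Prop :=
  ∀ Gq Gr : Finset ℕ, Gq ⊆ V1 g → Gr ⊆ V1 g → ∀ q₁ ∈ Gq, ∀ r₁ ∈ Gr,
    (∀ q ∈ Gq, rgh x q = rgh x q₁ ∧ Nat.log 2 q = Nat.log 2 q₁) →
    (∀ r ∈ Gr, rgh x r = rgh x r₁ ∧ Nat.log 2 r = Nat.log 2 r₁) →
    ∀ n₁ ∈ Sh g q₁ r₁, T q₁ r₁ n₁ → Kd g δ q₁ r₁ n₁ ≠ 0 →
    ∑ q ∈ Gq, ∑ r ∈ Gr.erase q, f g q * f g r / Dl g q r *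
      ∑ n ∈ (Sh g q r).filter (fun n => T q r n), Kd g δ q r n ≤
    A * β (szx x r₁ - szx x q₁) * ((∏ p ∈ lkx g x i q₁ r₁, (lam * dsa g c1 c x (cL q₁) q₁ p)) *
      ∏ p ∈ lkx g x i r₁ q₁, (lam * dsa g c1 c x (cR r₁) r₁ p)) *
      gm2 ((u2x g x i q₁ r₁ : ℝ) * u2x g x i r₁ q₁)
        ((∑ q ∈ Gq, f g q) * Wt g i r₁ / rgh x (rcof (z g i) (N g) (kc g q₁) q₁ r₁))
        ((∑ r ∈ Gr, f g r) * Wt g i q₁ / rgh x (rcof (z g i) (N g) (kc g r₁) r₁ q₁))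

/-- a class of triples at the cut `x`, with the beginnings `cL`, `cR` of the phases -/
structure ClY (g : Cfg) (δ : ℕ → ℕ → ℝ) (x : ℕ) (I : Finset ℕ) (T : ℕ → ℕ → ℕ → ℤ → Prop)
    (cL cR : ℕ → ℕ) : Prop where
  cut : ∀ i ∈ I, x ≤ z g i
  zs_le : zs g ≤ x
  cln : ∀ i ∈ I, ∀ q r n, T i q r n → Clean g (z g i) q r
  mx : ∀ i ∈ I, ∀ q ∈ V1 g, ∀ r ∈ V1 g, ∀ n ∈ Sh g q r, T i q r n → Kd g δ q r n ≠ 0 →
    max (cL q) (cR r) = i
  pl : ∀ i ∈ I, ∀ q ∈ V1 g, ∀ r ∈ V1 g, ∀ n ∈ Sh g q r, T i q r n → Kd g δ q r n ≠ 0 →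
    PlX g x i q r ∧ PlX g x i r q
  cLc : ∀ q ∈ V1 g, ∀ q' ∈ V1 g, rgh x q = rgh x q' → Nat.log 2 q = Nat.log 2 q' → cL q = cL q'
  cRc : ∀ q ∈ V1 g, ∀ q' ∈ V1 g, rgh x q = rgh x q' → Nat.log 2 q = Nat.log 2 q' → cR q = cR q'

theorem dsa_eq (c1 c : ℝ) (x a q p : ℕ) : dsa g c1 c x a q p = dst g c1 c x a (wrd g x q) p := by
  unfold dsa dst
  rw [cut_congr (AgL.rgh x q), cut_congr (wrd_agL x q)]

theorem wf_lkx' (c1 c lam : ℝ) {x i a q r : ℕ} (ha : rcof (z g i) (N g) (kc g q) q r ≠ 0) :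
    ∏ p ∈ lkx g x i q r, (lam * dsa g c1 c x a q p) =
      wf g c1 (lam * c) x a (wrd g x q) (omx g x q (rcof (z g i) (N g) (kc g q) q r)) := by
  rw [wf_smul, lkx_eq ha]
  exact prod_congr rfl fun p _ => by rw [dsa_eq]

theorem ClY.px {δ : ℕ → ℕ → ℝ} {x : ℕ} {I : Finset ℕ} {T : ℕ → ℕ → ℕ → ℤ → Prop}
    {cL cR : ℕ → ℕ} (hV : g.V ⊆ Icc 1 (N g)) (cl : ClY g δ x I T cL cR) {i : ℕ} (hi : i ∈ I)
    {q r : ℕ} {n : ℤ} (hq : q ∈ V1 g) (hr : r ∈ V1 g) (hn : n ∈ Sh g q r) (hT : T i q r n)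
    (hK : Kd g δ q r n ≠ 0) : PX g x i q r := by
  have hqV : q ∈ g.V := (mem_filter.1 (mem_filter.1 hq).1).1
  have hrV : r ∈ g.V := (mem_filter.1 (mem_filter.1 hr).1).1
  have hc : Clean g (z g i) q r := cl.cln i hi q r n hT
  have hxz := cl.cut i hi
  obtain ⟨h1, h2⟩ := cl.pl i hi q hq r hr n hn hT hK
  refine ⟨hqV, hrV, cl.zs_le, hxz, hc, h1, ?_⟩
  intro p hp hxp hd
  refine h2 p hp hxp ?_
  rw [rcof_swap hV (cl.zs_le.trans hxz) hqV hrV hc]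
  exact hd

/-- **The energy of a class at a cut, two-sided beginnings.** -/
theorem enY_of_X2 {c1 c lam C : ℝ} (hX2 : X2 c1 (lam * c) C) (g : Cfg) (hV : g.V ⊆ Icc 1 (N g))
    (hc1 : 2 ≤ c1 * zs g) (δ : ℕ → ℕ → ℝ) (x : ℕ) (I : Finset ℕ)
    (T : ℕ → ℕ → ℕ → ℤ → Prop) (cL cR : ℕ → ℕ) (hδ : Om δ) (cl : ClY g δ x I T cL cR)
    (A B : ℝ) (β : ℤ → ℝ) (hA : 0 ≤ A) (hβ : ∀ l, 0 ≤ β l)
    (hB : ∀ s : Finset ℤ, ∑ l ∈ s, β l ≤ B)
    (hG : ∀ i ∈ I, GBy g δ c1 c lam A β x i cL cR (T i)) :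
    ∑ i ∈ I, EnS g (V1 g) δ (T i) ≤ 2 * C * A * B * ∑ q ∈ V1 g, f g q := by
  classical
  -- the representatives of the groups
  have hex : ∀ e ∈ (V1 g).image (kyx x), ∃ q ∈ V1 g, kyx x q = e := fun e he => by
    obtain ⟨q, hq, hqe⟩ := mem_image.1 he
    exact ⟨q, hq, hqe⟩
  choose! ρ hρ1 hρ2 using hex
  set S := (V1 g).image (kyx x) with hS
  have hVq : ∀ {q : ℕ}, q ∈ V1 g → q ∈ g.V := fun hq => (mem_filter.1 (mem_filter.1 hq).1).1
  set hl : ℕ × ℕ → ℤ := fun e => (e.2 : ℤ) - Nat.log 2 e.1 with hhl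
  set D : ℤ := 1 + ∑ e ∈ S, (e.2 : ℤ) with hD
  have hDlt : ∀ e ∈ S, (e.2 : ℤ) < D := fun e he => by
    have := single_le_sum (f := fun e : ℕ × ℕ => (e.2 : ℤ)) (fun e _ => Int.natCast_nonneg _) he
    have h2 : (e.2 : ℤ) ≤ ∑ e ∈ S, (e.2 : ℤ) := this
    omega
  -- the doubled family
  set nu : (ℕ × ℕ) × Bool → ℕ := fun y => wrd g x (ρ y.1) with hnu
  set hl' : (ℕ × ℕ) × Bool → ℤ := fun y => hl y.1 + if y.2 then D else 0 with hhl'
  set cc : (ℕ × ℕ) × Bool → ℕ := fun y => if y.2 then cR (ρ y.1) else cL (ρ y.1) with hcc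
  set Fm : (ℕ × ℕ) × Bool → ℝ := fun y => ∑ q ∈ Gpx g x y.1, f g q with hFm
  set S' : Finset ((ℕ × ℕ) × Bool) := S ×ˢ (univ : Finset Bool) with hS'
  have hS1 : ∀ y ∈ S', y.1 ∈ S := fun y hy => (mem_product.1 hy).1
  -- the data of a member of a group
  have hmem : ∀ e ∈ S, ∀ q ∈ Gpx g x e, q ∈ V1 g ∧ rgh x q = rgh x (ρ e) ∧
      Nat.log 2 q = Nat.log 2 (ρ e) ∧ wrd g x q = wrd g x (ρ e) ∧ szx x q = hl e ∧
      cL q = cL (ρ e) ∧ cR q = cR (ρ e) := by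
    intro e he q hq
    obtain ⟨h1, h2⟩ := mem_Gpx.1 hq
    have h3 := hρ2 e he
    have h4 := h2.trans h3.symm
    have e1 : rgh x q = rgh x (ρ e) := by
      change (kyx x q).1 = (kyx x (ρ e)).1
      rw [h4]
    have e2 : Nat.log 2 q = Nat.log 2 (ρ e) := by
      change (kyx x q).2 = (kyx x (ρ e)).2
      rw [h4]
    refine ⟨h1, e1, e2, wrd_congr e1, ?_, cl.cLc q h1 _ (hρ1 e he) e1 e2,
      cl.cRc q h1 _ (hρ1 e he) e1 e2⟩
    simp only [hhl]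
    rw [← h2]
    rfl
  have hfam : FamX g x S' nu hl' Fm := by
    refine ⟨fun y hy y' hy' h1 h2 => ?_, fun y _ => wrd_pos _ _, fun y hy =>
      (wrd_Gd (hVq (hρ1 _ (hS1 y hy)))).2, fun y hy => Dvx_sum cl.zs_le (hρ1 _ (hS1 y hy)),
      fun y _ => sum_nonneg fun q _ => f_nonneg g q⟩
    have he := hS1 y hy
    have he' := hS1 y' hy'
    have h3 : rgh x (ρ y.1) = rgh x (ρ y'.1) := wrd_inj h1
    have h4 : y.1.1 = y'.1.1 := by
      rw [← hρ2 _ he, ← hρ2 _ he']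
      exact h3
    have h6 : (y.1.2 : ℤ) - Nat.log 2 y.1.1 + (if y.2 then D else 0) =
        (y'.1.2 : ℤ) - Nat.log 2 y'.1.1 + (if y'.2 then D else 0) := h2
    rw [h4] at h6
    have d1 := hDlt _ he
    have d2 := hDlt _ he'
    have h7 : y.2 = y'.2 := by
      cases hb : y.2 <;> cases hb' : y'.2 <;> rw [hb, hb'] at h6 <;>
        simp only [if_true, if_false, Bool.false_eq_true] at h6
      · omega
      · omega
    rw [h7] at h6
    exact Prod.ext (Prod.ext h4 (by omega)) h7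
  have hB' : ∀ s : Finset ℤ, ∑ l ∈ s, β (l - D) ≤ B := fun s => by
    have h1 := hB (s.image (fun l => l - D))
    rwa [sum_image (fun a _ b _ h => by
      have h' : a - D = b - D := h
      omega)] at h1
  have hE := hX2 g x cl.zs_le hc1 S' nu hl' cc Fm hfam A B (fun l => β (l - D)) hA
    (fun l => hβ _) hB' I
    (fun i y y' => if y.2 = false ∧ y'.2 = true then Egx g δ x (T i) y.1 y'.1 else 0)
    (fun i hi => cl.cut i hi) ?_
  · have e1 : ∑ i ∈ I, EnS g (V1 g) δ (T i) =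
        ∑ i ∈ I, ∑ y ∈ S', ∑ y' ∈ S', (if y.2 = false ∧ y'.2 = true then
          Egx g δ x (T i) y.1 y'.1 else 0) := by
      refine sum_congr rfl fun i _ => ?_
      rw [EnS_groups δ x (T i), hS', sum_product]
      refine sum_congr rfl fun e _ => ?_
      rw [Fintype.sum_bool]
      have k1 : ∑ y' ∈ S ×ˢ (univ : Finset Bool), (if ((e, true) : (ℕ × ℕ) × Bool).2 = false ∧
          y'.2 = true then Egx g δ x (T i) ((e, true) : (ℕ × ℕ) × Bool).1 y'.1 else 0) = 0 :=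
        sum_eq_zero fun y' _ => if_neg fun h => by simp at h
      rw [k1, zero_add, sum_product]
      refine sum_congr rfl fun e' _ => ?_
      rw [Fintype.sum_bool]
      simp
    rw [e1]
    refine hE.trans (le_of_eq ?_)
    have e2 : ∑ y ∈ S', Fm y = 2 * ∑ q ∈ V1 g, f g q := by
      rw [hS', sum_product]
      have k2 : ∀ e ∈ S, ∑ b : Bool, Fm (e, b) = 2 * ∑ q ∈ Gpx g x e, f g q := fun e _ => by
        rw [Fintype.sum_bool]
        simp only [hFm]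
        ring
      rw [sum_congr rfl k2, ← mul_sum, hS, sum_groups]
    rw [e2]
    ring
  intro i hi y hy y' hy'
  refine ⟨?_, fun hne => ?_⟩
  · split_ifs
    · exact Egx_nonneg hδ x (T i) _ _
    · exact le_rfl
  obtain ⟨e, b⟩ := y
  obtain ⟨e', b'⟩ := y'
  have he : e ∈ S := hS1 _ hy
  have he' : e' ∈ S := hS1 _ hy'
  have hbb : b = false ∧ b' = true := by
    by_contra hcon
    exact hne (if_neg hcon)
  obtain ⟨rfl, rfl⟩ := hbb
  have hne' : Egx g δ x (T i) e e' ≠ 0 := fun h => hne (by simp only [h, ite_self])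
  have hif : (if ((e, false) : (ℕ × ℕ) × Bool).2 = false ∧ ((e', true) : (ℕ × ℕ) × Bool).2 = true
      then Egx g δ x (T i) ((e, false) : (ℕ × ℕ) × Bool).1 ((e', true) : (ℕ × ℕ) × Bool).1 else 0)
      = Egx g δ x (T i) e e' := if_pos ⟨rfl, rfl⟩
  rw [hif]
  obtain ⟨q, r, n, hq, hr, hn, hT, hK⟩ := Egx_ne hne'
  obtain ⟨hq1, hq2, hq3, hq4, hq5, hq6, -⟩ := hmem e he q hq
  obtain ⟨hr1, hr2, hr3, hr4, hr5, -, hr6⟩ := hmem e' he' r hr
  have hpx := cl.px hV hi hq1 hr1 hn hT hK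
  have hz : zs g ≤ z g i := cl.zs_le.trans (cl.cut i hi)
  obtain ⟨-, -, -, ha, hb⟩ := clean_cofac hV hz (hVq hq1) (hVq hr1) hpx.cl
  have hsw := rcof_swap hV hz (hVq hq1) (hVq hr1) hpx.cl r q
  have hP := hpx.pairX hV
  rw [hq4, hr4] at hP
  have c1e : cc (e, false) = cL (ρ e) := by simp [hcc]
  have c2e : cc (e', true) = cR (ρ e') := by simp [hcc]
  have l1e : hl' (e, false) = hl e := by simp [hhl']
  have l2e : hl' (e', true) = hl e' + D := by simp [hhl']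
  refine ⟨?_, _, _, _, _, _, hP, ?_⟩
  · rw [c1e, c2e, ← hq6, ← hr6]
    exact cl.mx i hi q hq1 r hr1 n hn hT hK
  have hGB := hG i hi (Gpx g x e) (Gpx g x e') (Gpx_sub g x e) (Gpx_sub g x e') q hq r hr
    (fun q' hq' => by
      obtain ⟨-, h2, h3, -⟩ := hmem e he q' hq'
      exact ⟨h2.trans hq2.symm, h3.trans hq3.symm⟩)
    (fun r' hr' => by
      obtain ⟨-, h2, h3, -⟩ := hmem e' he' r' hr'
      exact ⟨h2.trans hr2.symm, h3.trans hr3.symm⟩) n hn hT hK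
  refine hGB.trans (le_of_eq ?_)
  have hb' : rcof (z g i) (N g) (kc g r) r q ≠ 0 := by
    rw [hsw]
    exact hb.ne'
  have hxz := cl.cut i hi
  have lD : hl' (e', true) - hl' (e, false) - D = hl e' - hl e := by
    rw [l1e, l2e]
    ring
  have n1 : nu (e, false) = wrd g x (ρ e) := rfl
  have n2 : nu (e', true) = wrd g x (ρ e') := rfl
  have f1 : Fm (e, false) = ∑ q ∈ Gpx g x e, f g q := rfl
  have f2 : Fm (e', true) = ∑ q ∈ Gpx g x e', f g q := rfl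
  simp only [lD]
  rw [c1e, c2e, n1, n2, f1, f2, wf_lkx' c1 c lam ha.ne', wf_lkx' c1 c lam hb',
    u2x_eq (q := q), u2x_eq (q := r), hsw,
    ← omx_mul_rsx (g := g) x q (rcof (z g i) (N g) (kc g q) q r),
    ← omx_mul_rsx (g := g) x r (rcof (z g i) (N g) (kc g q) r q), hq5, hr5, hq6, hr6, hq4, hr4,
    ← wrd_Wt (q := r) hxz, ← wrd_Wt (q := q) hxz, hq4, hr4]
  unfold gm2 bdX
  have m1 : min (1 / 2 : ℝ) (1 - 1 / 2) - 2 / 5 = 1 / 10 := by norm_num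
  have m2 : min (9 / 20 : ℝ) (1 - 9 / 20) - 2 / 5 = 1 / 20 := by norm_num
  have m3 : (1 : ℝ) - 1 / 2 = 1 / 2 := by norm_num
  have m4 : (1 : ℝ) - 9 / 20 = 11 / 20 := by norm_num
  rw [m1, m2, m3, m4]
  push_cast
  ring

end Vale.P028.SK
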